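import Vale.Agent.P028.MathlibUsed
import Vale.Agent.P028.CR.Top

/-!
# The finite covering property of one shift

If the moduli of a finite set `T` have mass `lam * ∑ φ q > 1`, then the `lam`-neighbourhood of the
points `(al + γ) / q` lying in a union of dyadic cells of total length `κ` has measure `≥ κ² / c`.
-/

namespace Vale.Agent.N028

open Finset MeasureTheory Vale.P028 Vale.P028.CR

/-- a union of dyadic cells of generation `m` -/
def EJ (m : ℕ) (J : Finset ℕ) : Set ℝ := ⋃ j ∈ J, cell m j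

theorem mem_EJ {m : ℕ} {J : Finset ℕ} {x : ℝ} : x ∈ EJ m J ↔ ∃ j ∈ J, x ∈ cell m j := by
  simp only [EJ, Set.mem_iUnion, exists_prop]

/-- the finite covering property of the shift `γ` with constant `c` -/
def FP (c : ℕ) (γ : ℝ) : Prop :=
  ∀ (m : ℕ) (J : Finset ℕ), J ⊆ range (2 ^ m) → ∀ (lam : ℝ) (T : Finset ℕ), 0 < lam →
    (∀ q ∈ T, 4 * 2 ^ m ≤ q ∧ (c : ℝ) + (q : ℝ) ^ (3 / 4 : ℝ) ≤ q / (2 * 2 ^ m) ∧
      lam * q ≤ 1 / 2) →
    1 < lam * ∑ q ∈ T, (q.totient : ℝ) →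
    ∀ Y : Set ℝ, (∀ q ∈ T, ∀ al : ℤ, ((al : ℝ) + γ) / q ∈ EJ m J → ((al : ℝ) + γ) / q ∈ Y) →
      ENNReal.ofReal (((J.card : ℝ) / 2 ^ m) ^ 2 / c) ≤ volume (Metric.thickening lam Y)

theorem GS_subset_thickening {γ : ℝ} {q : ℕ} (hq : 0 < q) {lam x : ℝ} (hx : x ≤ lam * q)
    {P : ℤ → Prop} {Y : Set ℝ} (hY : ∀ al : ℤ, P al → ((al : ℝ) + γ) / q ∈ Y) :
    GS γ q x P ⊆ Metric.thickening lam Y := by
  rintro y ⟨al, hal, hy⟩
  have hqR : (0 : ℝ) < q := by exact_mod_cast hq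
  rw [Metric.mem_thickening_iff]
  refine ⟨_, hY al hal, ?_⟩
  rw [Real.dist_eq]
  have h1 : y - ((al : ℝ) + γ) / q = ((q : ℝ) * y - γ - al) / q := by field_simp; ring
  rw [h1, abs_div, abs_of_pos hqR, div_lt_iff₀ hqR]
  linarith only [hy, hx]

open Classical in
theorem exists_FP {γ : ℝ} (h : MomentW γ) : ∃ c : ℕ, 0 < c ∧ FP c γ := by
  obtain ⟨C, hC, L₀, hres⟩ := rescaled h
  obtain ⟨c, hc⟩ := exists_nat_ge (max (max (C ^ 5) L₀) 1)
  have hc1 : (1 : ℝ) ≤ c := (le_max_right _ _).trans hc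
  have hcC : C ^ 5 ≤ c := ((le_max_left _ _).trans (le_max_left _ _)).trans hc
  have hcL : L₀ ≤ c := ((le_max_right _ _).trans (le_max_left _ _)).trans hc
  have hc0 : (0 : ℝ) < c := by linarith only [hc1]
  refine ⟨c, by exact_mod_cast hc0, ?_⟩
  intro m J hJ lam T hlam hT hbig Y hY
  have h2m : (0 : ℝ) < 2 ^ m := by positivity
  have hq0 : ∀ q ∈ T, 0 < q := fun q hq => lt_of_lt_of_le (by positivity) (hT q hq).1
  set κ : ℝ := (J.card : ℝ) / 2 ^ m with hκ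
  have hκ0 : 0 ≤ κ := by positivity
  rcases hκ0.eq_or_lt with h0 | hκ0
  · rw [← h0]
    simp
  obtain ⟨S, hS, w, f, P, g1, g2, g3, g4, g5⟩ := hres lam T hlam
    (fun q hq => ⟨hq0 q hq, (hT q hq).2.2⟩) hbig
  set P' : ℕ → ℤ → Prop := fun q al => P q al ∧ ∃ j ∈ J, ((al : ℝ) + γ) / q ∈ cell m j with hP'
  have hfm : ∀ q ∈ S, f q * (lam * q) * κ ≤
      C * (w q * volume.real (GS γ q (lam * q) (P' q) ∩ Set.Ioc 0 1)) := by
    intro q hq
    have hqT := hS hq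
    have hqR : (0 : ℝ) < q := by exact_mod_cast hq0 q hqT
    have h1 := first_moment (γ := γ) (q := q) (x := lam * q) (by positivity) (hT q hqT).2.2
      (P := P q) hJ (hT q hqT).1 (f := f q) (w := C * w q) (g2 q hq)
      (mul_nonneg hC.le (g1 q hq)) (by
        intro a b hab
        have h2 := g3 q hq a b (by linarith only [hab, (hT q hqT).2.1, hcL])
        linarith only [h2])
    refine h1.trans (le_of_eq ?_)
    rw [mul_assoc]
  have hfm2 : κ ≤ C * (C * ∑ q ∈ S, w q * volume.real (GS γ q (lam * q) (P' q) ∩ Set.Ioc 0 1)) := by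
    calc κ = 1 * κ := (one_mul κ).symm
      _ ≤ (C * ∑ q ∈ S, f q * (lam * q)) * κ := mul_le_mul_of_nonneg_right g4 hκ0.le
      _ = C * ∑ q ∈ S, f q * (lam * q) * κ := by rw [mul_assoc, sum_mul]
      _ ≤ C * ∑ q ∈ S, C * (w q * volume.real (GS γ q (lam * q) (P' q) ∩ Set.Ioc 0 1)) :=
          mul_le_mul_of_nonneg_left (sum_le_sum hfm) hC.le
      _ = _ := by rw [← mul_sum]
  have hsm : ∑ q ∈ S, ∑ r ∈ S, w q * w r * volume.real (GS γ q (lam * q) (P' q) ∩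
      GS γ r (lam * r) (P' r) ∩ Set.Ioc 0 1) ≤ C := by
    refine le_trans ?_ g5
    apply sum_le_sum
    intro q hq
    apply sum_le_sum
    intro r hr
    apply mul_le_mul_of_nonneg_left _ (mul_nonneg (g1 q hq) (g1 r hr))
    apply measureReal_mono
    · rintro x ⟨⟨⟨a, ha, hxa⟩, ⟨b, hb, hxb⟩⟩, hx⟩
      exact ⟨⟨⟨a, ha.1, hxa⟩, ⟨b, hb.1, hxb⟩⟩, hx⟩
    · refine ((measure_mono Set.inter_subset_right).trans_lt ?_).ne
      rw [Real.volume_Ioc]
      exact ENNReal.ofReal_lt_top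
  have hcs := cauchy (S := S) (w := w) (G := fun q => GS γ q (lam * q) (P' q))
    (fun q => (isOpen_GS _ _ _ _).measurableSet) (Metric.isOpen_thickening.measurableSet)
    (Z := Metric.thickening lam Y) (by
      intro q hq
      exact GS_subset_thickening (hq0 q (hS hq)) le_rfl
        (fun al hal => hY q (hS hq) al (mem_EJ.2 hal.2))) (C ^ 3 / κ)
  set M : ℝ := ∑ q ∈ S, w q * volume.real (GS γ q (lam * q) (P' q) ∩ Set.Ioc 0 1) with hM
  set V : ℝ := volume.real (Metric.thickening lam Y ∩ Set.Ioc 0 1) with hV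
  have h1 : κ / C ^ 2 ≤ M := by
    rw [div_le_iff₀ (by positivity)]
    linarith only [hfm2]
  have h2 : 2 * (C ^ 3 / κ) * (κ / C ^ 2) ≤ 2 * (C ^ 3 / κ) * M :=
    mul_le_mul_of_nonneg_left h1 (by positivity)
  have h3 : 2 * (C ^ 3 / κ) * (κ / C ^ 2) = 2 * C := by field_simp
  have h4 : C ≤ (C ^ 3 / κ) ^ 2 * V := by linarith only [hcs, hsm, h2, h3]
  have h5 : κ ^ 2 / C ^ 5 ≤ V := by
    have h6 : κ ^ 2 / C ^ 5 = (κ ^ 2 / C ^ 6) * C := by field_simp
    have h7 : (κ ^ 2 / C ^ 6) * ((C ^ 3 / κ) ^ 2 * V) = V := by field_simp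
    rw [h6, ← h7]
    exact mul_le_mul_of_nonneg_left h4 (by positivity)
  have h8 : κ ^ 2 / c ≤ κ ^ 2 / C ^ 5 :=
    div_le_div_of_nonneg_left (sq_nonneg _) (by positivity) hcC
  have hfin : volume (Metric.thickening lam Y ∩ Set.Ioc 0 1) ≠ ⊤ := by
    refine ((measure_mono Set.inter_subset_right).trans_lt ?_).ne
    rw [Real.volume_Ioc]
    exact ENNReal.ofReal_lt_top
  calc ENNReal.ofReal (κ ^ 2 / c) ≤ ENNReal.ofReal V := ENNReal.ofReal_le_ofReal (h8.trans h5)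
    _ = volume (Metric.thickening lam Y ∩ Set.Ioc 0 1) := by
        rw [hV, Measure.real, ENNReal.ofReal_toReal hfin]
    _ ≤ _ := measure_mono Set.inter_subset_left

/-- the covering property in a form which passes to limits of shifts -/
def FQ (c : ℕ) (γ : ℝ) : Prop :=
  ∀ (m : ℕ) (J : Finset ℕ), J ⊆ range (2 ^ m) → ∀ (lam : ℝ) (T : Finset ℕ), 0 < lam →
    (∀ q ∈ T, 4 * 2 ^ m ≤ q ∧ (c : ℝ) + (q : ℝ) ^ (3 / 4 : ℝ) ≤ q / (2 * 2 ^ m) ∧
      lam * q ≤ 1 / 2) →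
    1 < lam * ∑ q ∈ T, (q.totient : ℝ) →
    ∀ Y : Set ℝ, (∀ q ∈ T, ∀ al : ℤ, ((al : ℝ) + γ) / q ∈ Metric.thickening lam (EJ m J) →
        ((al : ℝ) + γ) / q ∈ Y) →
      ENNReal.ofReal (((J.card : ℝ) / 2 ^ m) ^ 2 / c) ≤ volume (Metric.thickening (2 * lam) Y)

theorem FQ_of_closure {c : ℕ} {γ : ℝ} (h : γ ∈ closure {g : ℝ | FP c g}) : FQ c γ := by
  intro m J hJ lam T hlam hT hbig Y hY
  obtain ⟨g, hg, hd⟩ := Metric.mem_closure_iff.1 h lam hlam
  have hq1 : ∀ q ∈ T, (1 : ℝ) ≤ q := fun q hq => by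
    have h1 : 0 < q := lt_of_lt_of_le (by positivity) (hT q hq).1
    exact_mod_cast h1
  have hdist : ∀ q ∈ T, ∀ al : ℤ, dist (((al : ℝ) + γ) / q) (((al : ℝ) + g) / q) < lam := by
    intro q hq al
    have h1 := hq1 q hq
    have h2 : (0 : ℝ) < q := by linarith only [h1]
    rw [Real.dist_eq] at hd ⊢
    have h3 : ((al : ℝ) + γ) / q - ((al : ℝ) + g) / q = (γ - g) / q := by ring
    rw [h3, abs_div, abs_of_pos h2]
    exact lt_of_le_of_lt (div_le_self (abs_nonneg _) h1) hd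
  have h1 := hg m J hJ lam T hlam hT hbig (Metric.thickening lam Y) (by
    intro q hq al hal
    rw [Metric.mem_thickening_iff]
    refine ⟨_, hY q hq al ?_, ?_⟩
    · rw [Metric.mem_thickening_iff]
      exact ⟨_, hal, hdist q hq al⟩
    · rw [dist_comm]
      exact hdist q hq al)
  refine h1.trans (measure_mono ?_)
  rw [two_mul]
  exact Metric.thickening_thickening_subset lam lam Y

end Vale.Agent.N028
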