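import Vale.Agent.P028.MathlibUsed
import Vale.Agent.N028.Fin

/-!
# One level with one shift, and the boundary of a grid
-/

namespace Vale.Agent.N028

open Finset MeasureTheory Vale.P028 Vale.P028.CR

theorem sq_window_le (k : ℕ) : ((2 : ℝ) ^ (k / 4 + 1)) ^ 2 / 2 ^ k ≤ 4 * (3 / 4) ^ k := by
  have h2 : (0 : ℝ) < 2 ^ k := by positivity
  rw [div_le_iff₀ h2]
  have e1 : (4 : ℝ) * (3 / 4) ^ k * 2 ^ k = 4 * (3 / 2) ^ k := by
    rw [mul_assoc, ← mul_pow]; norm_num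
  have e2 : ((2 : ℝ) ^ (k / 4 + 1)) ^ 2 = 4 * 4 ^ (k / 4) := by
    rw [← pow_mul, mul_comm, pow_mul, pow_succ]; norm_num; ring
  rw [e1, e2]
  have h3 : (4 : ℝ) ^ (k / 4) ≤ ((3 / 2) ^ 4) ^ (k / 4) :=
    pow_le_pow_left₀ (by norm_num) (by norm_num) _
  have h4 : (((3 : ℝ) / 2) ^ 4) ^ (k / 4) ≤ (3 / 2) ^ k := by
    rw [← pow_mul]
    exact pow_le_pow_right₀ (by norm_num) (Nat.mul_div_le k 4)
  linarith only [h3, h4]

theorem sum_geom_le {r : ℝ} (h0 : 0 ≤ r) (h1 : r < 1) (K : ℕ) :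
    ∑ k ∈ range K, r ^ k ≤ (1 - r)⁻¹ := by
  rw [← tsum_geometric_of_lt_one h0 h1]
  exact (summable_geometric_of_lt_one h0 h1).sum_le_tsum _ fun _ _ => pow_nonneg h0 _

open Classical in
/-- one level where the moduli with one and the same shift have large mass -/
theorem exists_level_shift {γ : ℕ → ℝ} {R : ℕ}
    (hR : ∀ n : ℕ, (γ '' Set.Icc n (n ^ 2)).ncard ≤ R) {ψ : ℕ → ℝ} (hψ : ∀ q, 0 ≤ ψ q) {N : ℕ}
    (hN : 1 ≤ N) (hhalf : ∀ q, N ≤ q → ψ q ≤ 1 / 2)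
    (hdiv : ¬ Summable (fun q : ℕ => ((q.totient : ℝ) / q) * ψ q)) {n : ℕ → ℝ} {A b : ℝ}
    (hA : 0 ≤ A) (hn : ∀ k, 0 ≤ n k) (hsum : ∀ K, ∑ k ∈ range K, n k / 2 ^ k ≤ b) :
    ∃ (k : ℕ) (g : ℝ) (T : Finset ℕ), (∀ q ∈ T, N ≤ q ∧ (q : ℝ) ≤ ψ q * 2 ^ k ∧ γ q = g) ∧
      A * n k < ∑ q ∈ T, (q.totient : ℝ) := by
  obtain ⟨k, T, hT, hbig⟩ := exists_level hψ hN hhalf hdiv
    (n := fun k => 2 * R * A * n k + ((2 : ℝ) ^ (k / 4 + 1)) ^ 2) (A := 1)
    (b := 2 * R * A * b + 16) zero_le_one (by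
      intro K
      have h1 : ∑ k ∈ range K, (2 * R * A * n k + ((2 : ℝ) ^ (k / 4 + 1)) ^ 2) / 2 ^ k =
          2 * R * A * ∑ k ∈ range K, n k / 2 ^ k +
            ∑ k ∈ range K, ((2 : ℝ) ^ (k / 4 + 1)) ^ 2 / 2 ^ k := by
        rw [mul_sum, ← sum_add_distrib]
        refine sum_congr rfl fun k _ => ?_
        ring
      have h2 : ∑ k ∈ range K, ((2 : ℝ) ^ (k / 4 + 1)) ^ 2 / 2 ^ k ≤
          ∑ k ∈ range K, 4 * ((3 : ℝ) / 4) ^ k := sum_le_sum fun k _ => sq_window_le k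
      rw [← mul_sum] at h2
      have h3 := sum_geom_le (r := 3 / 4) (by norm_num) (by norm_num) K
      have h4 : (1 - (3 : ℝ) / 4)⁻¹ = 4 := by norm_num
      have h5 : 2 * R * A * ∑ k ∈ range K, n k / 2 ^ k ≤ 2 * R * A * b :=
        mul_le_mul_of_nonneg_left (hsum K) (by positivity)
      rw [h1]
      rw [h4] at h3
      linarith only [h2, h3, h5])
  rw [one_mul] at hbig
  set a : ℕ := 2 ^ (k / 4 + 1) with ha
  have haR : (a : ℝ) = 2 ^ (k / 4 + 1) := by rw [ha]; push_cast; rfl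
  rw [← haR] at hbig
  set T₁ := T.filter (fun q => a ≤ q) with hT₁
  have hsmall : ∑ q ∈ T.filter (fun q => ¬ a ≤ q), (q.totient : ℝ) ≤ (a : ℝ) ^ 2 := by
    calc ∑ q ∈ T.filter (fun q => ¬ a ≤ q), (q.totient : ℝ) ≤ ∑ q ∈ range a, (q.totient : ℝ) := by
          apply sum_le_sum_of_subset_of_nonneg
          · intro q hq
            rw [mem_filter] at hq
            exact mem_range.2 (not_le.1 hq.2)
          · intro q _ _
            exact Nat.cast_nonneg _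
      _ ≤ ∑ _q ∈ range a, (a : ℝ) := by
          apply sum_le_sum
          intro q hq
          have h1 : q.totient ≤ a := (Nat.totient_le q).trans (mem_range.1 hq).le
          exact_mod_cast h1
      _ = (a : ℝ) ^ 2 := by rw [sum_const, card_range, nsmul_eq_mul, sq]
  have hbig1 : 2 * R * A * n k < ∑ q ∈ T₁, (q.totient : ℝ) := by
    have h1 := sum_filter_add_sum_filter_not T (fun q => a ≤ q) (fun q => (q.totient : ℝ))
    rw [← hT₁] at h1
    linarith only [h1, hsmall, hbig]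
  have hup : ∀ q ∈ T₁, a ≤ q ∧ q ≤ (a ^ 2) ^ 2 := by
    intro q hq
    rw [hT₁, mem_filter] at hq
    refine ⟨hq.2, ?_⟩
    obtain ⟨h1, h2⟩ := hT q hq.1
    have h3 : (0 : ℝ) < 2 ^ k := by positivity
    have h4 : (q : ℝ) ≤ 2 ^ k := by nlinarith only [h2, hhalf q h1, h3]
    have h5 : q ≤ 2 ^ k := by exact_mod_cast h4
    refine h5.trans ?_
    rw [ha, ← pow_mul, ← pow_mul]
    exact Nat.pow_le_pow_right (by norm_num) (by omega)
  have hcard : (T₁.image γ).card ≤ 2 * R := by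
    have h1 : ((T₁.image γ : Finset ℝ) : Set ℝ) ⊆
        γ '' Set.Icc a (a ^ 2) ∪ γ '' Set.Icc (a ^ 2) ((a ^ 2) ^ 2) := by
      intro y hy
      rw [mem_coe, mem_image] at hy
      obtain ⟨q, hq, rfl⟩ := hy
      obtain ⟨h2, h3⟩ := hup q hq
      rcases le_total q (a ^ 2) with h | h
      · exact Or.inl ⟨q, ⟨h2, h⟩, rfl⟩
      · exact Or.inr ⟨q, ⟨h, h3⟩, rfl⟩
    have h2 := Set.ncard_le_ncard h1
      (((Set.finite_Icc _ _).image γ).union ((Set.finite_Icc _ _).image γ))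
    rw [Set.ncard_coe_finset] at h2
    have h3 := Set.ncard_union_le (γ '' Set.Icc a (a ^ 2)) (γ '' Set.Icc (a ^ 2) ((a ^ 2) ^ 2))
    have h4 := hR a
    have h5 := hR (a ^ 2)
    omega
  obtain ⟨g, -, hg⟩ := exists_lt_sum_fiber_of_maps_to_of_nsmul_lt_sum (s := T₁) (t := T₁.image γ)
    (f := γ) (w := fun q => (q.totient : ℝ)) (b := A * n k)
    (fun q hq => mem_image_of_mem γ hq) (by
      rw [nsmul_eq_mul]
      refine lt_of_le_of_lt ?_ hbig1
      have h1 : (((T₁.image γ).card : ℕ) : ℝ) ≤ 2 * R := by exact_mod_cast hcard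
      have h2 := mul_le_mul_of_nonneg_right h1 (mul_nonneg hA (hn k))
      linarith only [h2])
  refine ⟨k, g, T₁.filter (fun q => γ q = g), ?_, hg⟩
  intro q hq
  rw [mem_filter, hT₁, mem_filter] at hq
  exact ⟨(hT q hq.1.1).1, (hT q hq.1.1).2, hq.2⟩

/-- the neighbourhood of the grid points of generation `m` -/
def Bd (m : ℕ) (lam : ℝ) : Set ℝ := ⋃ i ∈ range (2 ^ m + 1), Metric.ball ((i : ℝ) / 2 ^ m) lam

theorem thickening_EJ {m : ℕ} {J : Finset ℕ} (hJ : J ⊆ range (2 ^ m)) {lam z : ℝ}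
    (hz : z ∈ Metric.thickening lam (EJ m J)) : z ∈ EJ m J ∨ z ∈ Bd m lam := by
  rw [Metric.mem_thickening_iff] at hz
  obtain ⟨y, hy, hd⟩ := hz
  obtain ⟨j, hj, hy⟩ := mem_EJ.1 hy
  have hj' : j < 2 ^ m := mem_range.1 (hJ hj)
  rw [Real.dist_eq, abs_lt] at hd
  obtain ⟨hy1, hy2⟩ := hy
  rcases lt_or_ge z ((j : ℝ) / 2 ^ m) with h | h
  · right
    simp only [Bd, Set.mem_iUnion, exists_prop]
    refine ⟨j, mem_range.2 (by omega), ?_⟩
    rw [Metric.mem_ball, Real.dist_eq, abs_lt]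
    constructor
    · linarith only [hd.1, hy1]
    · linarith only [hd.1, hd.2, h]
  rcases lt_or_ge z (((j : ℝ) + 1) / 2 ^ m) with h' | h'
  · left
    exact mem_EJ.2 ⟨j, hj, h, h'⟩
  · right
    simp only [Bd, Set.mem_iUnion, exists_prop]
    refine ⟨j + 1, mem_range.2 (by omega), ?_⟩
    rw [Metric.mem_ball, Real.dist_eq, abs_lt]
    push_cast
    constructor
    · linarith only [hd.1, hd.2, h']
    · linarith only [hd.2, hy2]

theorem volume_thickening_Bd (m : ℕ) (lam : ℝ) :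
    volume (Metric.thickening (2 * lam) (Bd m lam)) ≤
      ENNReal.ofReal ((2 ^ m + 1) * (6 * lam)) := by
  have hsub : Metric.thickening (2 * lam) (Bd m lam) ⊆
      ⋃ i ∈ range (2 ^ m + 1), Metric.ball ((i : ℝ) / 2 ^ m) (3 * lam) := by
    intro z hz
    rw [Metric.mem_thickening_iff] at hz
    obtain ⟨y, hy, hd⟩ := hz
    simp only [Bd, Set.mem_iUnion, exists_prop] at hy ⊢
    obtain ⟨i, hi, hy⟩ := hy
    refine ⟨i, hi, ?_⟩
    rw [Metric.mem_ball] at hy ⊢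
    have := dist_triangle z y ((i : ℝ) / 2 ^ m)
    linarith only [this, hd, hy]
  refine (measure_mono hsub).trans ((measure_biUnion_finset_le _ _).trans (le_of_eq ?_))
  simp only [Real.volume_ball]
  rw [sum_const, card_range, nsmul_eq_mul, ← ENNReal.ofReal_natCast,
    ← ENNReal.ofReal_mul (Nat.cast_nonneg _)]
  congr 1
  push_cast
  ring

end Vale.Agent.N028
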