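import Vale.Agent.P028.MathlibUsed
import Vale.Agent.N028.Fin

/-!
# The covering property holds uniformly in the shift

The Baire category theorem gives an interval of shifts with a common constant; a dilation by a
power of two carries this interval onto all shifts.
-/

namespace Vale.Agent.N028

open Finset MeasureTheory Vale.P028 Vale.P028.CR

theorem exists_interval (h : ∀ γ : ℝ, MomentW γ) :
    ∃ c : ℕ, 0 < c ∧ ∃ a d : ℝ, 0 < d ∧ ∀ g : ℝ, a ≤ g → g ≤ a + d → FQ c g := by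
  have hU : ⋃ c : ℕ, closure {g : ℝ | FP (c + 1) g} = Set.univ := by
    rw [Set.eq_univ_iff_forall]
    intro g
    obtain ⟨c, hc, hg⟩ := exists_FP (h g)
    obtain ⟨c', rfl⟩ := Nat.exists_eq_succ_of_ne_zero hc.ne'
    exact Set.mem_iUnion.2 ⟨c', subset_closure hg⟩
  obtain ⟨c, x, hx⟩ := nonempty_interior_of_iUnion_of_closed (fun _ => isClosed_closure) hU
  obtain ⟨r, hr, hball⟩ := Metric.isOpen_iff.1 isOpen_interior x hx
  refine ⟨c + 1, Nat.succ_pos c, x, r / 2, by positivity, fun g h1 h2 => ?_⟩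
  apply FQ_of_closure
  apply interior_subset
  apply hball
  rw [Metric.mem_ball, Real.dist_eq, abs_lt]
  constructor
  · linarith only [h1, hr]
  · linarith only [h2, hr]

/-- the covering property with constants which do not depend on the shift -/
def UP (c A : ℝ) (Q : ℕ → ℕ) : Prop :=
  ∀ (γ : ℝ) (m : ℕ) (J : Finset ℕ), J ⊆ range (2 ^ m) → ∀ (lam : ℝ) (T : Finset ℕ), 0 < lam →
    (∀ q ∈ T, Q m ≤ q ∧ lam * q ≤ 1 / 2) →
    A < lam * ∑ q ∈ T, (q.totient : ℝ) →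
    ∀ Y : Set ℝ, (∀ q ∈ T, ∀ al : ℤ, ((al : ℝ) + γ) / q ∈ Metric.thickening lam (EJ m J) →
        ((al : ℝ) + γ) / q ∈ Y) →
      ENNReal.ofReal (((J.card : ℝ) / 2 ^ m) ^ 2 / c) ≤ volume (Metric.thickening (2 * lam) Y)

theorem mul_mem_EJ {m s : ℕ} {J : Finset ℕ} {y : ℝ} (hy : y ∈ EJ (m + s) J) :
    2 ^ s * y ∈ EJ m J := by
  rw [mem_EJ] at hy ⊢
  obtain ⟨j, hj, hy⟩ := hy
  refine ⟨j, hj, ?_⟩
  rw [mem_cell] at hy ⊢
  have e : (2 : ℝ) ^ s * y * 2 ^ m = y * 2 ^ (m + s) := by rw [pow_add]; ring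
  rw [e]
  exact hy

theorem exists_UP (h : ∀ γ : ℝ, MomentW γ) :
    ∃ c A : ℝ, 0 < c ∧ 0 < A ∧ ∃ Q : ℕ → ℕ, UP c A Q := by
  obtain ⟨c, hc, a, d, hd, hFQ⟩ := exists_interval h
  obtain ⟨s, hs⟩ := pow_unbounded_of_one_lt (1 / d) (by norm_num : (1 : ℝ) < 2)
  choose Q₁ hQ₁ using fun m : ℕ => long_interval (2 * 2 ^ (m + s)) (c : ℝ)
  have hcR : (0 : ℝ) < c := by exact_mod_cast hc
  have hM : (0 : ℝ) < 2 ^ s := by positivity
  have hM1 : (1 : ℝ) ≤ 2 ^ s := one_le_pow₀ (by norm_num)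
  refine ⟨2 ^ s * c, 2 ^ s, by positivity, hM, fun m => 4 * 2 ^ (m + s) + Q₁ m, ?_⟩
  intro γ m J hJ lam T hlam hT hbig Y hY
  set t : ℤ := ⌈2 ^ s * a - γ⌉ with ht
  set g : ℝ := (γ + t) / 2 ^ s with hg
  have hg1 : a ≤ g := by
    rw [hg, le_div_iff₀ hM]
    have := Int.le_ceil (2 ^ s * a - γ)
    linarith only [this]
  have hg2 : g ≤ a + d := by
    rw [hg, div_le_iff₀ hM]
    have h1 := Int.ceil_lt_add_one (2 ^ s * a - γ)
    rw [div_lt_iff₀ hd] at hs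
    nlinarith only [h1, hs]
  have hJ' : J ⊆ range (2 ^ (m + s)) := by
    refine hJ.trans (range_subset_range.2 ?_)
    exact Nat.pow_le_pow_right (by norm_num) (Nat.le_add_right _ _)
  have hlam' : 0 < lam / 2 ^ s := by positivity
  have hcen : ∀ q : ℕ, ∀ al : ℤ, 2 ^ s * (((al : ℝ) + g) / q) =
      (((2 ^ s * al + t : ℤ) : ℝ) + γ) / q := by
    intro q al
    rw [hg]
    push_cast
    rw [← mul_div_assoc]
    congr 1
    field_simp
    ring
  have key := hFQ g hg1 hg2 (m + s) J hJ' (lam / 2 ^ s) T hlam' (by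
    intro q hq
    obtain ⟨h1, h2⟩ := hT q hq
    have h1' : 4 * 2 ^ (m + s) + Q₁ m ≤ q := h1
    refine ⟨by omega, ?_, ?_⟩
    · refine (hQ₁ m q (by omega)).trans ?_
      push_cast
      apply div_le_div_of_nonneg_left (Nat.cast_nonneg _) (by positivity)
      linarith only []
    · refine le_trans ?_ h2
      exact mul_le_mul_of_nonneg_right (div_le_self hlam.le hM1) (Nat.cast_nonneg _)) (by
    rw [div_mul_eq_mul_div, lt_div_iff₀ hM, one_mul]
    exact hbig) ((fun y : ℝ => 2 ^ s * y) ⁻¹' Y) (by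
    intro q hq al hal
    rw [Set.mem_preimage, hcen]
    apply hY q hq
    rw [← hcen]
    rw [Metric.mem_thickening_iff] at hal ⊢
    obtain ⟨z, hz, hdz⟩ := hal
    refine ⟨2 ^ s * z, mul_mem_EJ hz, ?_⟩
    rw [Real.dist_eq] at hdz ⊢
    rw [← mul_sub, abs_mul, abs_of_pos hM]
    rw [lt_div_iff₀ hM] at hdz
    linarith only [hdz])
  have hsub : Metric.thickening (2 * (lam / 2 ^ s)) ((fun y : ℝ => 2 ^ s * y) ⁻¹' Y) ⊆
      (fun y : ℝ => 2 ^ s * y) ⁻¹' Metric.thickening (2 * lam) Y := by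
    intro y hy
    rw [Set.mem_preimage]
    rw [Metric.mem_thickening_iff] at hy ⊢
    obtain ⟨z, hz, hdz⟩ := hy
    refine ⟨2 ^ s * z, hz, ?_⟩
    rw [Real.dist_eq] at hdz ⊢
    rw [← mul_sub, abs_mul, abs_of_pos hM]
    rw [← mul_div_assoc, lt_div_iff₀ hM] at hdz
    linarith only [hdz]
  have h1 := key.trans (measure_mono hsub)
  rw [Real.volume_preimage_mul_left hM.ne', abs_of_pos (inv_pos.2 hM)] at h1
  have h2 : ENNReal.ofReal (2 ^ s : ℝ) * ENNReal.ofReal (((J.card : ℝ) / 2 ^ (m + s)) ^ 2 / c) ≤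
      ENNReal.ofReal (2 ^ s : ℝ) * (ENNReal.ofReal ((2 ^ s : ℝ)⁻¹) *
        volume (Metric.thickening (2 * lam) Y)) := mul_le_mul_right h1 _
  rw [← mul_assoc, ← ENNReal.ofReal_mul hM.le, ← ENNReal.ofReal_mul hM.le, mul_inv_cancel₀ hM.ne',
    ENNReal.ofReal_one, one_mul] at h2
  refine le_trans (le_of_eq ?_) h2
  congr 1
  rw [pow_add]
  field_simp

end Vale.Agent.N028
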