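import Vale.Agent.P028.MathlibUsed
import Vale.Agent.N028.Unif
import Vale.Agent.N028.Level

/-!
# Slowly moving targets

If the shifts `γ q` take boundedly many values on every window `[n, n²]`, then divergence of
`∑ φ(q) ψ(q) / q` gives `‖q x - γ q‖ < ψ q` infinitely often for almost every `x`.
-/

namespace Vale.Agent.N028

open Finset MeasureTheory Vale.P028 Vale.P028.CR

/-- the limit set of a moving target -/
def WM (γ ψ : ℕ → ℝ) : Set ℝ :=
  {x : ℝ | {q : ℕ | 0 < q ∧ distInt (q * x - γ q) < ψ q}.Infinite}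

theorem distInt_add_int (t : ℝ) (n : ℤ) : distInt (t + n) = distInt t := by
  unfold distInt
  rw [round_add_intCast]
  congr 1
  push_cast
  ring

theorem WM_add_int (γ ψ : ℕ → ℝ) (x : ℝ) (n : ℤ) : x + n ∈ WM γ ψ ↔ x ∈ WM γ ψ := by
  have e : {q : ℕ | 0 < q ∧ distInt (q * (x + n) - γ q) < ψ q}
      = {q : ℕ | 0 < q ∧ distInt (q * x - γ q) < ψ q} := by
    ext q
    have e2 : (q : ℝ) * (x + n) - γ q = (q * x - γ q) + (((q : ℤ) * n : ℤ) : ℝ) := by
      push_cast; ring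
    simp only [Set.mem_ofPred_eq]
    rw [e2, distInt_add_int]
  simp only [WM, Set.mem_ofPred_eq]
  rw [e]

/-- a set which is invariant under integer translations and null on the unit interval is null -/
theorem null_of_periodic {Z : Set ℝ} (hZ : ∀ (x : ℝ) (n : ℤ), x ∈ Z → x + n ∈ Z)
    (h : volume (Z ∩ Set.Icc 0 1) = 0) : volume Z = 0 := by
  have hsub : Z ⊆ ⋃ n : ℤ, (fun x : ℝ => x + (n : ℝ)) ⁻¹' (Z ∩ Set.Icc 0 1) := by
    intro x hx
    rw [Set.mem_iUnion]
    refine ⟨-⌊x⌋, hZ x _ hx, ?_, ?_⟩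
    · push_cast
      have := Int.floor_le x
      linarith only [this]
    · push_cast
      have := Int.lt_floor_add_one x
      linarith only [this]
  refine measure_mono_null hsub (measure_iUnion_null fun n => ?_)
  rw [measure_preimage_add_right]
  exact h

/-- the union of the arcs of all moduli `q ≥ N` -/
def UM (γ ψ : ℕ → ℝ) (N : ℕ) : Set ℝ :=
  ⋃ q ∈ {q : ℕ | N ≤ q ∧ 0 < q}, GS (γ q) q (ψ q) (fun _ => True)

theorem isOpen_UM (γ ψ : ℕ → ℝ) (N : ℕ) : IsOpen (UM γ ψ N) :=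
  isOpen_iUnion fun _ => isOpen_iUnion fun _ => isOpen_GS _ _ _ _

theorem UM_anti (γ ψ : ℕ → ℝ) {N M : ℕ} (h : N ≤ M) : UM γ ψ M ⊆ UM γ ψ N := by
  intro x hx
  simp only [UM, Set.mem_iUnion] at hx ⊢
  obtain ⟨q, hq, hx⟩ := hx
  exact ⟨q, ⟨h.trans hq.1, hq.2⟩, hx⟩

theorem exists_UM_compl {γ ψ : ℕ → ℝ} (h : volume (WM γ ψ)ᶜ ≠ 0) :
    ∃ N, volume ((UM γ ψ N)ᶜ ∩ Set.Icc 0 1) ≠ 0 := by
  by_contra hcon
  push Not at hcon
  apply h
  apply null_of_periodic (Z := (WM γ ψ)ᶜ) (fun x n hx hx' => hx ((WM_add_int γ ψ x n).1 hx'))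
  refine measure_mono_null ?_ (measure_iUnion_null hcon)
  rintro x ⟨hx, hx1⟩
  rw [Set.mem_iUnion]
  by_contra hc
  push Not at hc
  apply hx
  apply Set.infinite_of_forall_exists_gt
  intro N
  have h2 : x ∈ UM γ ψ (N + 1) := by
    by_contra h3
    exact hc (N + 1) ⟨h3, hx1⟩
  simp only [UM, Set.mem_iUnion, Set.mem_ofPred_eq] at h2
  obtain ⟨q, hq, hx2⟩ := h2
  exact ⟨q, ⟨hq.2, GS_subset _ _ _ _ hx2⟩, by omega⟩

open Classical in
theorem moving_of_UP {c A : ℝ} (hc : 0 < c) (hA : 0 < A) {Q : ℕ → ℕ} (hUP : UP c A Q)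
    {γ : ℕ → ℝ} {R : ℕ} (hR : ∀ n : ℕ, (γ '' Set.Icc n (n ^ 2)).ncard ≤ R)
    (ψ : ℕ → ℝ) (hψ : ∀ q, 0 ≤ ψ q)
    (hdiv : ¬ Summable (fun q : ℕ => ((q.totient : ℝ) / q) * ψ q)) :
    volume (WM γ ψ)ᶜ = 0 := by
  by_cases hbig : ∀ N : ℕ, ∃ q, N ≤ q ∧ 1 / 2 < ψ q
  · have : WM γ ψ = Set.univ := by
      rw [Set.eq_univ_iff_forall]
      intro x
      rw [WM, Set.mem_ofPred_eq]
      apply Set.infinite_of_forall_exists_gt
      intro N
      obtain ⟨q, h1, h2⟩ := hbig (N + 1)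
      refine ⟨q, ⟨by omega, ?_⟩, by omega⟩
      have : distInt (q * x - γ q) ≤ 1 / 2 := by
        unfold distInt
        exact abs_sub_round _
      linarith only [this, h2]
    rw [this]
    simp
  push Not at hbig
  obtain ⟨N₄, hN₄⟩ := hbig
  by_contra hne
  obtain ⟨N, hN⟩ := exists_UM_compl hne
  set K : Set ℝ := (UM γ ψ N)ᶜ ∩ Set.Icc 0 1 with hK
  have hKc : IsCompact K := by
    rw [hK, Set.inter_comm]
    exact isCompact_Icc.inter_right (isOpen_UM γ ψ N).isClosed_compl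
  have hKtop : volume K ≠ ⊤ := hKc.measure_ne_top
  set κ : ℝ := volume.real K with hκ
  have hκ0 : 0 < κ := ENNReal.toReal_pos hN hKtop
  set e : ℝ := min (κ / 12) (κ ^ 2 / (7 * c)) with he
  have he0 : 0 < e := by
    rw [he]
    exact lt_min (by positivity) (by positivity)
  have he1 : e ≤ κ / 12 := min_le_left _ _
  have he2 : e ≤ κ ^ 2 / (7 * c) := min_le_right _ _
  obtain ⟨m, J, hJ, hJκ, hJe⟩ := exists_grid hKc Set.inter_subset_right he0
  have h2m : (0 : ℝ) < 2 ^ m := by positivity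
  obtain ⟨Q₂, hQ₂⟩ := exists_nat_ge (3 * (2 ^ m + 1) / e)
  set N' : ℕ := N + N₄ + 4 * 2 ^ m + Q m + Q₂ + 1 with hN'
  set B : Set ℝ := UM γ ψ N' ∩ ⋃ j ∈ J, cell m j with hB
  have hBe : volume B ≤ ENNReal.ofReal e := by
    refine (measure_mono ?_).trans hJe
    rintro x ⟨hx1, hx2⟩
    refine ⟨hx2, fun hxK => ?_⟩
    exact hxK.1 (UM_anti γ ψ (by omega) hx1)
  have hn1 : ∀ k, 0 < nC B k + 1 := fun k => by linarith only [nC_nonneg B k]
  obtain ⟨k, g, T, hT, hbig⟩ := exists_level_shift hR hψ (N := N') (by omega)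
    (fun q hq => hN₄ q (by omega)) hdiv (n := fun k => nC B k + 1) (A := A / e) (b := 2 * e + 2)
    (by positivity) (fun k => (hn1 k).le) (by
      intro K'
      have h1 : ∑ k ∈ range K', (nC B k + 1) / 2 ^ k =
          ∑ k ∈ range K', nC B k / 2 ^ k + ∑ k ∈ range K', (1 / 2 : ℝ) ^ k := by
        rw [← sum_add_distrib]
        refine sum_congr rfl fun k _ => ?_
        rw [one_div_pow, add_div]
      have h2 := sum_nC_le he0.le hBe K'
      have h3 := sum_geom_le (r := 1 / 2) (by norm_num) (by norm_num) K'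
      have h4 : (1 - (1 : ℝ) / 2)⁻¹ = 2 := by norm_num
      rw [h1]
      rw [h4] at h3
      linarith only [h2, h3])
  have hsumpos : 0 < ∑ q ∈ T, (q.totient : ℝ) := by
    refine lt_of_le_of_lt ?_ hbig
    exact mul_nonneg (by positivity) (hn1 k).le
  obtain ⟨q₀, hq₀, -⟩ := exists_ne_zero_of_sum_ne_zero hsumpos.ne'
  have hTq : ∀ q ∈ T, 4 * 2 ^ m ≤ q ∧ 0 < q ∧ Q m ≤ q ∧ ψ q ≤ 1 / 2 ∧ Q₂ ≤ q := by
    intro q hq
    have h1 := (hT q hq).1
    refine ⟨by omega, by omega, by omega, hN₄ q (by omega), by omega⟩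
  have hmk : m ≤ k := by
    have h1 := (hT q₀ hq₀).2.1
    obtain ⟨h2, -, -, h3, -⟩ := hTq q₀ hq₀
    have h4 : 4 * (2 : ℝ) ^ m ≤ q₀ := by exact_mod_cast h2
    have h5 : (0 : ℝ) < 2 ^ k := by positivity
    have h6 : (2 : ℝ) ^ m ≤ 2 ^ k := by nlinarith only [h1, h3, h4, h5, h2m]
    exact (pow_le_pow_iff_right₀ (by norm_num : (1 : ℝ) < 2)).1 h6
  have hcentre : ∀ q ∈ T, ∀ al : ℤ, (∃ j ∈ J, ((al : ℝ) + g) / q ∈ cell m j) →
      ((al : ℝ) + g) / q ∈ RC B k := by
    rintro q hq al ⟨j, hj, hz⟩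
    obtain ⟨h1, h2, hg⟩ := hT q hq
    have hq0 : 0 < q := (hTq q hq).2.1
    have hqR : (0 : ℝ) < q := by exact_mod_cast hq0
    have h5 : (0 : ℝ) < 2 ^ k := by positivity
    refine mem_RC hJ hmk (t := ψ q / q) ?_ ?_ hj hz
    · rw [div_le_div_iff₀ h5 hqR]
      linarith only [h2]
    · intro y hy
      simp only [UM, Set.mem_iUnion]
      refine ⟨q, ⟨h1, hq0⟩, al, trivial, ?_⟩
      obtain ⟨h6, h7⟩ := hy
      rw [← sub_div, div_lt_iff₀ hqR] at h6
      rw [← add_div, lt_div_iff₀ hqR] at h7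
      rw [abs_lt, hg]
      constructor
      · linarith only [h6]
      · linarith only [h7]
  have hfirst1 : ∀ q ∈ T, κ / 2 ≤ volume.real (GS g q (1 / 2)
      (fun al => True ∧ ∃ j ∈ J, ((al : ℝ) + g) / q ∈ cell m j) ∩ Set.Ioc 0 1) := by
    intro q hq
    have h1 := first_moment (γ := g) (q := q) (x := 1 / 2) (by norm_num) le_rfl
      (P := fun _ => True) hJ (hTq q hq).1 (f := 1) (w := 1) zero_le_one zero_le_one (by
        intro a b _
        have e0 : ∀ i1 : DecidablePred (fun _ : ℤ => True),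
            @filter ℤ (fun _ : ℤ => True) i1 (Ioc a b) = Ioc a b := by
          intro i1
          ext z
          exact ⟨fun h => ((@mem_filter ℤ _ i1 _ _).1 h).1,
            fun h => (@mem_filter ℤ _ i1 _ _).2 ⟨h, trivial⟩⟩
        rw [e0, one_mul, one_mul]
        exact card_Ioc_ge a b)
    rw [one_mul, one_mul] at h1
    linarith only [h1, hJκ]
  set lam : ℝ := e / (nC B k + 1) with hlam
  have hlam0 : 0 < lam := div_pos he0 (hn1 k)
  have hlamn : lam * (nC B k + 1) = e := by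
    rw [hlam]
    exact div_mul_cancel₀ e (hn1 k).ne'
  have hlamn' : lam * nC B k ≤ e := by nlinarith only [hlamn, hlam0]
  have hthick : ∀ l : ℝ, 0 ≤ l → volume (Metric.thickening l (RC B k)) ≤
      ENNReal.ofReal (e + 2 * l * nC B k) := by
    intro l hl
    refine (volume_thickening_RC B hl k).trans (ENNReal.ofReal_le_ofReal ?_)
    have := card_div_le he0.le hBe k
    linarith only [this]
  have hlamq : ∀ q ∈ T, lam * q ≤ 1 / 2 := by
    intro q hq
    by_contra hcon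
    have h0 := GS_subset_thickening (γ := g) (hTq q hq).2.1 (not_le.1 hcon).le
      (P := fun al => True ∧ ∃ j ∈ J, ((al : ℝ) + g) / q ∈ cell m j) (Y := RC B k)
      (fun al hal => hcentre q hq al hal.2)
    have h1 : volume.real (GS g q (1 / 2)
        (fun al => True ∧ ∃ j ∈ J, ((al : ℝ) + g) / q ∈ cell m j) ∩ Set.Ioc 0 1) ≤ 3 * e := by
      refine ENNReal.toReal_le_of_le_ofReal (by positivity) ?_
      refine (measure_mono (Set.inter_subset_left.trans h0)).trans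
        ((hthick lam hlam0.le).trans (ENNReal.ofReal_le_ofReal ?_))
      linarith only [hlamn']
    have h2 := hfirst1 q hq
    linarith only [h1, h2, he1, hκ0]
  have hlamBd : (2 ^ m + 1) * (6 * lam) ≤ e := by
    have h1 := hlamq q₀ hq₀
    have h2 : (Q₂ : ℝ) ≤ q₀ := by exact_mod_cast (hTq q₀ hq₀).2.2.2.2
    have h3 : 3 * (2 ^ m + 1) ≤ q₀ * e := by
      rw [div_le_iff₀ he0] at hQ₂
      nlinarith only [hQ₂, h2, he0]
    have h4 : 3 * (2 ^ m + 1) * (2 * lam) ≤ q₀ * e * (2 * lam) :=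
      mul_le_mul_of_nonneg_right h3 (by positivity)
    nlinarith only [h4, h1, he0]
  have key := hUP g m J hJ lam T hlam0 (fun q hq => ⟨(hTq q hq).2.2.1, hlamq q hq⟩) (by
    have h1 : lam * (A / e * (nC B k + 1)) < lam * ∑ q ∈ T, (q.totient : ℝ) :=
      mul_lt_mul_of_pos_left hbig hlam0
    have h2 : lam * (A / e * (nC B k + 1)) = A := by
      calc lam * (A / e * (nC B k + 1)) = A / e * (lam * (nC B k + 1)) := by ring
        _ = A := by rw [hlamn]; exact div_mul_cancel₀ A he0.ne'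
    rw [h2] at h1
    exact h1) (RC B k ∪ Bd m lam) (by
    intro q hq al hal
    rcases thickening_EJ hJ hal with h | h
    · exact Or.inl (hcentre q hq al (mem_EJ.1 h))
    · exact Or.inr h)
  rw [Metric.thickening_union] at key
  have h1 : volume (Metric.thickening (2 * lam) (RC B k) ∪ Metric.thickening (2 * lam) (Bd m lam)) ≤
      ENNReal.ofReal (6 * e) := by
    refine (measure_union_le _ _).trans ?_
    refine (add_le_add (hthick (2 * lam) (by positivity)) (volume_thickening_Bd m lam)).trans ?_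
    rw [← ENNReal.ofReal_add (by
      have := mul_nonneg hlam0.le (nC_nonneg B k)
      linarith only [this, he0]) (by positivity)]
    apply ENNReal.ofReal_le_ofReal
    linarith only [hlamn', hlamBd]
  have h2 := (ENNReal.ofReal_le_ofReal_iff (by positivity)).1 (key.trans h1)
  have h3 : κ ^ 2 / c ≤ ((J.card : ℝ) / 2 ^ m) ^ 2 / c :=
    div_le_div_of_nonneg_right (pow_le_pow_left₀ hκ0.le hJκ 2) hc.le
  have h4 : κ ^ 2 / (7 * c) = κ ^ 2 / c / 7 := by field_simp
  have h5 : 0 < κ ^ 2 / c := by positivity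
  linarith only [h2, h3, h4, h5, he2]

theorem moving_of_momentW (h : ∀ g : ℝ, MomentW g) {γ : ℕ → ℝ} {R : ℕ}
    (hR : ∀ n : ℕ, (γ '' Set.Icc n (n ^ 2)).ncard ≤ R) (ψ : ℕ → ℝ) (hψ : ∀ q, 0 ≤ ψ q)
    (hdiv : ¬ Summable (fun q : ℕ => ((q.totient : ℝ) / q) * ψ q)) :
    volume (WM γ ψ)ᶜ = 0 := by
  obtain ⟨c, A, hc, hA, Q, hUP⟩ := exists_UP h
  exact moving_of_UP hc hA hUP hR ψ hψ hdiv

end Vale.Agent.N028
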