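import Vale.Agent.P028.MathlibUsed
import Vale.Agent.N028.Move

/-!
# One stage of the construction which shows that the weight `φ(q) / q` cannot be enlarged

The moduli are divisors `q` of a high power `n` of `P` having all the prime factors of `P`; among
them we keep a class on which the numbers `(n / q) γ t` are almost constant modulo one.
-/

namespace Vale.Agent.N028

open Finset MeasureTheory Vale.P028

theorem sum_biUnion_le' {f : ℕ → ℝ} (hf : ∀ d, 0 ≤ f d) (s : Finset ℕ) (t : ℕ → Finset ℕ) :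
    ∑ d ∈ s.biUnion t, f d ≤ ∑ p ∈ s, ∑ d ∈ t p, f d := by
  induction s using Finset.induction_on with
  | empty => simp
  | insert a s ha ih =>
    rw [biUnion_insert, sum_insert ha]
    have h1 := sum_union_inter (s₁ := t a) (s₂ := s.biUnion t) (f := f)
    have h2 : 0 ≤ ∑ d ∈ t a ∩ s.biUnion t, f d := sum_nonneg fun d _ => hf d
    linarith only [h1, h2, ih]

/-- most of the totient mass of the divisors of `P ^ j` sits on those with all primes of `P` -/
theorem good_mass {P j : ℕ} (hP : 0 < P) (hj : 2 * P.primeFactors.card ≤ 2 ^ j) :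
    ((P : ℝ) ^ j) / 2 ≤ ∑ d ∈ (P ^ j).divisors.filter (fun d => d.primeFactors = P.primeFactors),
      (d.totient : ℝ) := by
  classical
  have hsum : ∀ n : ℕ, ∑ d ∈ n.divisors, (d.totient : ℝ) = n := by
    intro n
    have h := Nat.sum_totient n
    exact_mod_cast h
  have h1 := sum_filter_add_sum_filter_not (P ^ j).divisors
    (fun d => d.primeFactors = P.primeFactors) (fun d => (d.totient : ℝ))
  rw [hsum] at h1
  have hsub : (P ^ j).divisors.filter (fun d => ¬ d.primeFactors = P.primeFactors) ⊆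
      P.primeFactors.biUnion (fun p => ((P / p) ^ j).divisors) := by
    intro d hd
    rw [mem_filter, Nat.mem_divisors] at hd
    obtain ⟨⟨hd1, hd0⟩, hd2⟩ := hd
    have hsub1 : d.primeFactors ⊆ P.primeFactors := by
      intro p hp
      rw [Nat.mem_primeFactors] at hp ⊢
      exact ⟨hp.1, hp.1.dvd_of_dvd_pow (hp.2.1.trans hd1), hP.ne'⟩
    obtain ⟨p, hp1, hp2⟩ := exists_of_ssubset (Finset.ssubset_iff_subset_ne.2 ⟨hsub1, hd2⟩)
    rw [mem_biUnion]
    refine ⟨p, hp1, ?_⟩
    have hp := Nat.prime_of_mem_primeFactors hp1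
    have hpP := Nat.dvd_of_mem_primeFactors hp1
    have hdne : d ≠ 0 := fun h => hd0 (Nat.eq_zero_of_zero_dvd (h ▸ hd1))
    have hnd : ¬ p ∣ d := fun h => hp2 (Nat.mem_primeFactors.2 ⟨hp, h, hdne⟩)
    have hco : Nat.Coprime d (p ^ j) :=
      Nat.Coprime.pow_right j ((Nat.Prime.coprime_iff_not_dvd hp).2 hnd).symm
    rw [Nat.mem_divisors]
    constructor
    · apply hco.dvd_of_dvd_mul_left
      rw [← mul_pow, Nat.mul_div_cancel' hpP]
      exact hd1
    · exact pow_ne_zero _ (Nat.div_pos (Nat.le_of_dvd hP hpP) hp.pos).ne'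
  have h2j : (0 : ℝ) < 2 ^ j := by positivity
  have h2 : ∑ d ∈ (P ^ j).divisors.filter (fun d => ¬ d.primeFactors = P.primeFactors),
      (d.totient : ℝ) ≤ (P : ℝ) ^ j / 2 := by
    calc _ ≤ ∑ d ∈ P.primeFactors.biUnion (fun p => ((P / p) ^ j).divisors), (d.totient : ℝ) :=
          sum_le_sum_of_subset_of_nonneg hsub fun _ _ _ => Nat.cast_nonneg _
      _ ≤ ∑ p ∈ P.primeFactors, ∑ d ∈ ((P / p) ^ j).divisors, (d.totient : ℝ) :=
          sum_biUnion_le' (fun _ => Nat.cast_nonneg _) _ _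
      _ ≤ ∑ _p ∈ P.primeFactors, (P : ℝ) ^ j / 2 ^ j := by
          apply sum_le_sum
          intro p hp
          rw [hsum, le_div_iff₀ h2j]
          have h3 : P / p * 2 ≤ P :=
            (Nat.mul_le_mul_left _ (Nat.prime_of_mem_primeFactors hp).two_le).trans
              (Nat.div_mul_le_self P p)
          have h4 : (P / p * 2) ^ j ≤ P ^ j := Nat.pow_le_pow_left h3 j
          rw [mul_pow] at h4
          exact_mod_cast h4
      _ = (P.primeFactors.card : ℝ) * ((P : ℝ) ^ j / 2 ^ j) := by rw [sum_const, nsmul_eq_mul]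
      _ ≤ (P : ℝ) ^ j / 2 := by
          have h3 : 2 * (P.primeFactors.card : ℝ) ≤ 2 ^ j := by exact_mod_cast hj
          have h4 : (0 : ℝ) ≤ (P : ℝ) ^ j := by positivity
          rw [← mul_div_assoc, div_le_div_iff₀ h2j (by norm_num)]
          nlinarith only [h3, h4]
  push_cast at h1
  linarith only [h1, h2]

theorem totient_ratio {d P : ℕ} (h : d.primeFactors = P.primeFactors) :
    (d.totient : ℝ) * P = (P.totient : ℝ) * d := by
  have h1 := Nat.totient_eq_mul_prod_factors d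
  have h2 := Nat.totient_eq_mul_prod_factors P
  rw [h] at h1
  have h3 : (d.totient : ℚ) * P = (P.totient : ℚ) * d := by
    rw [h1, h2]; ring
  exact_mod_cast h3

/-- arcs of one modulus on the unit interval -/
theorem volume_arcs {n : ℕ} (hn : 0 < n) {β α : ℝ} (hβ0 : 0 ≤ β) (hβ1 : β ≤ 1) (hα0 : 0 ≤ α)
    (hα : α ≤ 1) :
    volume ({x : ℝ | ∃ al : ℤ, |(n : ℝ) * x - β - al| < α} ∩ Set.Icc 0 1) ≤
      ENNReal.ofReal (10 * α) := by
  have hnR : (0 : ℝ) < n := by exact_mod_cast hn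
  have hn1 : (1 : ℝ) ≤ n := by exact_mod_cast hn
  have hsub : {x : ℝ | ∃ al : ℤ, |(n : ℝ) * x - β - al| < α} ∩ Set.Icc 0 1 ⊆
      ⋃ i ∈ range (n + 4), Metric.ball ((β + ((i : ℝ) - 2)) / n) (α / n) := by
    rintro x ⟨⟨al, hal⟩, hx0, hx1⟩
    have hal' := abs_lt.1 hal
    have h1 : (0 : ℝ) ≤ n * x := by positivity
    have h2 : (n : ℝ) * x ≤ n := by nlinarith only [hx1, hnR]
    have h3 : (-2 : ℝ) < al := by linarith only [hal'.2, h1, hβ1, hα]
    have h4 : (al : ℝ) < n + 1 := by linarith only [hal'.1, h2, hβ0, hα]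
    have h5 : (-2 : ℤ) < al := by exact_mod_cast h3
    have h6 : al < (n : ℤ) + 1 := by exact_mod_cast h4
    simp only [Set.mem_iUnion, exists_prop]
    refine ⟨(al + 2).toNat, mem_range.2 (by omega), ?_⟩
    have h7 : (((al + 2).toNat : ℕ) : ℤ) = al + 2 := Int.toNat_of_nonneg (by omega)
    have h8 : (((al + 2).toNat : ℕ) : ℝ) = al + 2 := by exact_mod_cast h7
    rw [Metric.mem_ball, Real.dist_eq, h8]
    have h9 : x - (β + ((al : ℝ) + 2 - 2)) / n = ((n : ℝ) * x - β - al) / n := by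
      field_simp; ring
    rw [h9, abs_div, abs_of_pos hnR]
    exact div_lt_div_of_pos_right hal hnR
  refine (measure_mono hsub).trans ((measure_biUnion_finset_le _ _).trans ?_)
  simp only [Real.volume_ball]
  rw [sum_const, card_range, nsmul_eq_mul, ← ENNReal.ofReal_natCast,
    ← ENNReal.ofReal_mul (Nat.cast_nonneg _)]
  apply ENNReal.ofReal_le_ofReal
  push_cast
  rw [← mul_div_assoc, ← mul_div_assoc, div_le_iff₀ hnR]
  nlinarith only [hn1, hα0]

open Classical in
/-- one stage of the construction -/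
theorem exists_stage {w : ℕ → ℝ}
    (hw : ∀ q r : ℕ, 0 < q → 0 < r → q.primeFactors = r.primeFactors → w q = w r)
    (hunb : ¬ ∃ C : ℝ, ∀ q : ℕ, 0 < q → w q ≤ C * ((q.totient : ℝ) / q)) (γ : ℕ → ℝ) (i N : ℕ) :
    ∃ (S : Finset ℕ) (f : ℕ → ℝ), (∀ q, 0 ≤ f q) ∧ (∀ q ∈ S, N < q) ∧ 1 ≤ ∑ q ∈ S, w q * f q ∧
      ∀ t ≤ i, volume ({x : ℝ | ∃ q ∈ S, distInt (q * x - γ t) < f q} ∩ Set.Icc 0 1) ≤
        ENNReal.ofReal (10 * (1 / 2) ^ i) := by
  push Not at hunb
  set L : ℕ := 2 ^ (i + 1) with hL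
  have hL0 : 0 < L := by positivity
  have hLR : (0 : ℝ) < L := by exact_mod_cast hL0
  have hL2 : (2 : ℝ) / L = (1 / 2) ^ i := by
    rw [hL]
    push_cast
    rw [one_div_pow, pow_succ]
    field_simp
  set K : ℝ := 2 * (L : ℝ) ^ (i + 2) with hK
  obtain ⟨P, hP, hwP⟩ := hunb (max K (w 1))
  have hPR : (0 : ℝ) < P := by exact_mod_cast hP
  have hP2 : 2 ≤ P := by
    by_contra hcon
    have h1 : P = 1 := by omega
    rw [h1] at hwP
    simp only [Nat.totient_one, Nat.cast_one, div_one, mul_one] at hwP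
    exact absurd hwP (not_lt.2 (le_max_right _ _))
  have hwK : K * ((P.totient : ℝ) / P) ≤ w P :=
    (mul_le_mul_of_nonneg_right (le_max_left _ _) (by positivity)).trans hwP.le
  set j : ℕ := 2 * P.primeFactors.card with hj
  have hmass := good_mass (j := j) hP (Nat.lt_two_pow_self).le
  set m : ℕ := P ^ j with hm
  have hm0 : 0 < m := by positivity
  have hmR : (0 : ℝ) < m := by exact_mod_cast hm0
  have hmP : (P : ℝ) ^ j = m := by rw [hm]; push_cast; rfl
  rw [hmP] at hmass
  set D := m.divisors.filter (fun d => d.primeFactors = P.primeFactors) with hD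
  set F : ℕ → Fin (i + 1) → ℕ := fun d t => ⌊(L : ℝ) * Int.fract (((m / d : ℕ) : ℝ) * γ t)⌋₊
    with hF
  have hFL : ∀ d t, F d t < L := by
    intro d t
    simp only [hF]
    rw [Nat.floor_lt (mul_nonneg hLR.le (Int.fract_nonneg _))]
    have := Int.fract_lt_one (((m / d : ℕ) : ℝ) * γ t)
    nlinarith only [this, hLR]
  obtain ⟨y, hy, hy2⟩ := exists_le_sum_fiber_of_maps_to_of_nsmul_le_sum (s := D)
    (t := Fintype.piFinset (fun _ : Fin (i + 1) => range L)) (f := F)
    (w := fun d => (d.totient : ℝ)) (b := (m : ℝ) / 2 / (L : ℝ) ^ (i + 1))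
    (fun d _ => Fintype.mem_piFinset.2 fun t => mem_range.2 (hFL d t))
    ⟨fun _ => 0, Fintype.mem_piFinset.2 fun _ => mem_range.2 hL0⟩ (by
      rw [Fintype.card_piFinset_const, card_range, nsmul_eq_mul]
      push_cast
      rw [mul_div_cancel₀ _ (by positivity)]
      exact hmass)
  set D' := D.filter (fun d => F d = y) with hD'
  have hD'1 : ∀ d ∈ D', d ∣ m ∧ d.primeFactors = P.primeFactors ∧ F d = y ∧ 0 < d := by
    intro d hd
    rw [hD', mem_filter, hD, mem_filter, Nat.mem_divisors] at hd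
    exact ⟨hd.1.1.1, hd.1.2, hd.2, Nat.pos_of_dvd_of_pos hd.1.1.1 hm0⟩
  set a : ℕ := P ^ (N + 1) with ha
  have ha0 : 0 < a := by positivity
  have haR : (0 : ℝ) < a := by exact_mod_cast ha0
  have haN : N < a := by
    have h1 : N + 1 < 2 ^ (N + 1) := Nat.lt_two_pow_self
    have h2 : 2 ^ (N + 1) ≤ P ^ (N + 1) := Nat.pow_le_pow_left hP2 _
    omega
  refine ⟨D'.image (fun d => a * d), fun q => (q : ℝ) / (L * (a * m)), fun q => by positivity,
    ?_, ?_, ?_⟩
  · intro q hq
    obtain ⟨d, hd, rfl⟩ := mem_image.1 hq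
    exact lt_of_lt_of_le haN (Nat.le_mul_of_pos_right a (hD'1 d hd).2.2.2)
  · rw [sum_image (fun d _ d' _ h => Nat.eq_of_mul_eq_mul_left ha0 h)]
    have h1 : ∀ d ∈ D', K / (L * m) * (d.totient : ℝ) ≤
        w (a * d) * (((a * d : ℕ) : ℝ) / (L * (a * m))) := by
      intro d hd
      obtain ⟨-, h2, -, h3⟩ := hD'1 d hd
      have h4 : w (a * d) = w P := by
        apply hw _ _ (by positivity) hP
        rw [Nat.primeFactors_mul ha0.ne' h3.ne', h2, ha, Nat.primeFactors_pow _ (by omega),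
          union_self]
      have h5 := totient_ratio h2
      have h6 : (d.totient : ℝ) = (P.totient : ℝ) / P * d := by
        rw [div_mul_eq_mul_div, eq_div_iff hPR.ne', h5]
      have h7 : ((a * d : ℕ) : ℝ) / (L * (a * m)) = d / (L * m) := by
        push_cast
        field_simp
      rw [h4, h7, h6]
      calc K / (L * m) * ((P.totient : ℝ) / P * d) =
          (K * ((P.totient : ℝ) / P)) * (d / (L * m)) := by ring
        _ ≤ w P * (d / (L * m)) := mul_le_mul_of_nonneg_right hwK (by positivity)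
    refine le_trans ?_ (sum_le_sum h1)
    rw [← mul_sum]
    have h2 : K / (L * m) * ((m : ℝ) / 2 / (L : ℝ) ^ (i + 1)) = 1 := by
      rw [hK]
      field_simp
      ring
    rw [← h2]
    exact mul_le_mul_of_nonneg_left hy2 (by positivity)
  · intro t ht
    set t' : Fin (i + 1) := ⟨t, Nat.lt_succ_of_le ht⟩ with ht'
    have hyL : y t' < L := mem_range.1 (Fintype.mem_piFinset.1 hy t')
    have hyR : (y t' : ℝ) ≤ L := by exact_mod_cast hyL.le
    have h1 := volume_arcs (n := a * m) (by positivity) (β := (y t' : ℝ) / L) (α := 2 / L)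
      (by positivity) ((div_le_one hLR).2 hyR) (by positivity)
      (by rw [hL2]; exact pow_le_one₀ (by norm_num) (by norm_num))
    rw [← hL2]
    refine le_trans (measure_mono (Set.inter_subset_inter_left _ ?_)) h1
    rintro x ⟨q, hq, hx⟩
    obtain ⟨d, hd, rfl⟩ := mem_image.1 hq
    obtain ⟨⟨k, hk⟩, -, h3, hd0⟩ := hD'1 d hd
    have hk0 : 0 < k := Nat.pos_of_mul_pos_left (hk ▸ hm0)
    have hkR : (0 : ℝ) < k := by exact_mod_cast hk0
    have hdR : (0 : ℝ) < d := by exact_mod_cast hd0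
    have hmd : m / d = k := by rw [hk, Nat.mul_div_cancel_left k hd0]
    have hmk : (m : ℝ) = d * k := by exact_mod_cast hk
    have h4 : ⌊(L : ℝ) * Int.fract ((k : ℝ) * γ t)⌋₊ = y t' := by
      rw [← h3]
      simp only [hF, hmd, ht']
    have h5 : (y t' : ℝ) ≤ L * Int.fract ((k : ℝ) * γ t) := by
      rw [← h4]
      exact Nat.floor_le (mul_nonneg hLR.le (Int.fract_nonneg _))
    have h6 : (L : ℝ) * Int.fract ((k : ℝ) * γ t) < y t' + 1 := by
      rw [← h4]
      exact Nat.lt_floor_add_one _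
    have h7 : (y t' : ℝ) / L ≤ Int.fract ((k : ℝ) * γ t) := by
      rw [div_le_iff₀ hLR]; linarith only [h5]
    have h8 : Int.fract ((k : ℝ) * γ t) < (y t' : ℝ) / L + 1 / L := by
      rw [← add_div, lt_div_iff₀ hLR]; linarith only [h6]
    unfold distInt at hx
    set r : ℤ := round (((a * d : ℕ) : ℝ) * x - γ t) with hr
    have h9 : ((a * d : ℕ) : ℝ) / (L * (a * m)) = 1 / L / k := by
      rw [hmk]
      push_cast
      field_simp
    simp only [] at hx
    rw [h9, lt_div_iff₀ hkR, ← abs_of_pos hkR, ← abs_mul, abs_lt] at hx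
    refine ⟨k * r + ⌊(k : ℝ) * γ t⌋, ?_⟩
    have h10 := Int.floor_add_fract ((k : ℝ) * γ t)
    have h11 : ((a * m : ℕ) : ℝ) * x - (y t' : ℝ) / L - ((k * r + ⌊(k : ℝ) * γ t⌋ : ℤ) : ℝ) =
        (((a * d : ℕ) : ℝ) * x - γ t - r) * k + (Int.fract ((k : ℝ) * γ t) - (y t' : ℝ) / L) := by
      push_cast
      rw [hmk]
      linarith only [h10]
    have h12 : (2 : ℝ) / L = 1 / L + 1 / L := by ring
    have h13 : (0 : ℝ) < 1 / L := by positivity
    rw [h11, h12, abs_lt]
    constructor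
    · linarith only [hx.1, h7, h13]
    · linarith only [hx.2, h8]

end Vale.Agent.N028
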