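import Vale.Agent.P028.MathlibUsed
import Vale.Agent.N028.Stage

/-!
# The weight `φ(q) / q` cannot be enlarged

If a weight `w` depends only on the set of prime factors and is not `O(φ(q) / q)`, then for any
countably many shifts there is `ψ` with `∑ w ψ = ∞` for which all the limit sets are null.
-/

namespace Vale.Agent.N028

open Finset MeasureTheory Vale.P028

open Classical in
theorem sharp {w : ℕ → ℝ}
    (hw : ∀ q r : ℕ, 0 < q → 0 < r → q.primeFactors = r.primeFactors → w q = w r)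
    (hunb : ¬ ∃ C : ℝ, ∀ q : ℕ, 0 < q → w q ≤ C * ((q.totient : ℝ) / q)) (γ : ℕ → ℝ) :
    ∃ ψ : ℕ → ℝ, (∀ q, 0 ≤ ψ q) ∧ ¬ Summable (fun q : ℕ => w q * ψ q) ∧
      ∀ t : ℕ, volume (W (γ t) ψ) = 0 := by
  choose S f hf hS hmass hvol using exists_stage hw hunb γ
  let Nn : ℕ → ℕ := fun i => Nat.rec 0 (fun i N => (S i N).sup id + N + 1) i
  have hNn : ∀ i, Nn (i + 1) = (S i (Nn i)).sup id + Nn i + 1 := fun i => rfl
  have hmono : StrictMono Nn := strictMono_nat_of_lt_succ fun i => by rw [hNn]; omega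
  have hlo : ∀ i, ∀ q ∈ S i (Nn i), Nn i < q := fun i q hq => hS i (Nn i) q hq
  have hhi : ∀ i, ∀ q ∈ S i (Nn i), q < Nn (i + 1) := by
    intro i q hq
    have h1 : id q ≤ (S i (Nn i)).sup id := le_sup hq
    rw [hNn]
    simp only [id] at h1
    omega
  have huniq : ∀ i j q, q ∈ S i (Nn i) → q ∈ S j (Nn j) → i = j := by
    intro i j q hi hj
    have h1 : Nn i < Nn (j + 1) := (hlo i q hi).trans (hhi j q hj)
    have h2 : Nn j < Nn (i + 1) := (hlo j q hj).trans (hhi i q hi)
    have h3 : i < j + 1 := (hmono.lt_iff_lt (a := i) (b := j + 1)).1 h1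
    have h4 : j < i + 1 := (hmono.lt_iff_lt (a := j) (b := i + 1)).1 h2
    omega
  set ψ : ℕ → ℝ := fun q =>
    if h : ∃ i, q ∈ S i (Nn i) then f h.choose (Nn h.choose) q else 0 with hψ
  have hψ1 : ∀ i, ∀ q ∈ S i (Nn i), ψ q = f i (Nn i) q := by
    intro i q hq
    have h : ∃ i, q ∈ S i (Nn i) := ⟨i, hq⟩
    simp only [hψ]
    rw [dif_pos h, huniq _ _ q h.choose_spec hq]
  have hψ0 : ∀ q, (¬ ∃ i, q ∈ S i (Nn i)) → ψ q = 0 := by
    intro q h
    simp only [hψ]
    rw [dif_neg h]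
  refine ⟨ψ, ?_, ?_, ?_⟩
  · intro q
    by_cases h : ∃ i, q ∈ S i (Nn i)
    · obtain ⟨i, hi⟩ := h
      rw [hψ1 i q hi]
      exact hf _ _ _
    · rw [hψ0 q h]
  · intro hsum
    obtain ⟨s, hs⟩ := summable_iff_vanishing_norm.1 hsum 1 one_pos
    set i := s.sup id with hi
    have hdis : Disjoint (S i (Nn i)) s := by
      rw [disjoint_left]
      intro q hq hqs
      have h1 : id q ≤ s.sup id := le_sup hqs
      have h2 := hlo i q hq
      have h3 : i ≤ Nn i := hmono.id_le i
      simp only [id] at h1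
      omega
    have h1 := hs _ hdis
    have h2 : ∑ q ∈ S i (Nn i), w q * ψ q = ∑ q ∈ S i (Nn i), w q * f i (Nn i) q :=
      sum_congr rfl fun q hq => by rw [hψ1 i q hq]
    rw [h2, Real.norm_eq_abs] at h1
    have h3 := hmass i (Nn i)
    have h4 := le_abs_self (∑ q ∈ S i (Nn i), w q * f i (Nn i) q)
    linarith only [h1, h3, h4]
  · intro t
    have hper : ∀ (x : ℝ) (n : ℤ), x ∈ W (γ t) ψ → x + n ∈ W (γ t) ψ := fun x n hx =>
      (WM_add_int (fun _ => γ t) ψ x n).2 hx
    apply null_of_periodic hper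
    set A : ℕ → Set ℝ := fun i =>
      {x : ℝ | ∃ q ∈ S (i + t) (Nn (i + t)),
        distInt (q * x - γ t) < f (i + t) (Nn (i + t)) q} ∩ Set.Icc 0 1 with hA
    have hAv : ∀ i, volume (A i) ≤ ENNReal.ofReal (10 * (1 / 2) ^ i) := by
      intro i
      refine (hvol (i + t) (Nn (i + t)) t (Nat.le_add_left t i)).trans
        (ENNReal.ofReal_le_ofReal ?_)
      have := pow_le_pow_of_le_one (by norm_num : (0 : ℝ) ≤ 1 / 2) (by norm_num)
        (Nat.le_add_right i t)
      linarith only [this]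
    have hsum : ∑' i, volume (A i) ≠ ⊤ := by
      refine ne_top_of_le_ne_top ?_ (ENNReal.tsum_le_tsum hAv)
      rw [← ENNReal.ofReal_tsum_of_nonneg (fun i => by positivity)
        (summable_geometric_two.mul_left 10)]
      exact ENNReal.ofReal_ne_top
    have hae := ae_finite_setOfPred_mem hsum
    rw [ae_iff] at hae
    refine measure_mono_null ?_ hae
    rintro x ⟨hx, hx1⟩ hfin
    apply hx
    have hsub : {q : ℕ | 0 < q ∧ distInt (q * x - γ t) < ψ q} ⊆
        (⋃ i ∈ {i | x ∈ A i}, (S (i + t) (Nn (i + t)) : Set ℕ)) ∪ Set.Iio (Nn t) := by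
      rintro q ⟨-, hq⟩
      by_cases h : ∃ i, q ∈ S i (Nn i)
      · obtain ⟨i, hi⟩ := h
        rw [hψ1 i q hi] at hq
        rcases lt_or_ge i t with hit | hit
        · right
          exact lt_of_lt_of_le (hhi i q hi) (hmono.monotone hit)
        · left
          obtain ⟨i', rfl⟩ := Nat.exists_eq_add_of_le' hit
          simp only [Set.mem_iUnion, exists_prop]
          exact ⟨i', ⟨⟨q, hi, hq⟩, hx1⟩, hi⟩
      · rw [hψ0 q h] at hq
        exact absurd hq (not_lt.2 (abs_nonneg _))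
    exact ((hfin.biUnion fun i _ => Finset.finite_toSet _).union (Set.finite_Iio _)).subset hsub

end Vale.Agent.N028
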