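import Vale.Agent.P028.MathlibUsed
import Vale.Agent.P028.RD.FQ.Q1Done
import Vale.Agent.N028.Sharp

/-!
# Moving targets and the critical weight: unconditional forms
-/

namespace Vale.Agent.N028

open MeasureTheory Vale.P028 Vale.P028.SK Vale.P028.CF

theorem momentW_all (γ : ℝ) : MomentW γ := by
  have hc : cF ≤ 1 / 1000 := by unfold cF; norm_num
  have hG : EvGBb1 c1F cF := evGBb1 c1F_pos cF_pos.le (by unfold cF; norm_num)
  exact momentW_of_momentC (momentC_of_BM (bm_of_PRig (pRig_of_PT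
    (evPT_of5 c1F_pos.le cF_pos.le (by linarith)
      (evPTn γ c1F_pos c1F_exp cF_pos hc) (evPTd γ c1F_pos c1F_exp cF_pos hc)
      (evPTb1_dd γ c1F_pos cF_pos.le (by linarith) hG)
      (evPTb20_of (fun _ hV x => rd5 hV x) γ c1F_pos c1F_exp cF_pos hc)
      (X53.evPTb21 γ c1F_pos c1F_exp cF_pos hc fun _ hV x _ => rd5 hV x)))))

theorem moving {γ : ℕ → ℝ} {R : ℕ} (hR : ∀ n : ℕ, (γ '' Set.Icc n (n ^ 2)).ncard ≤ R)
    (ψ : ℕ → ℝ) (hψ : ∀ q, 0 ≤ ψ q)
    (hdiv : ¬ Summable (fun q : ℕ => ((q.totient : ℝ) / q) * ψ q)) :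
    volume (WM γ ψ)ᶜ = 0 :=
  moving_of_momentW momentW_all hR ψ hψ hdiv

/-- a shift which depends only on `⌊log₂ ⌊log₂ q⌋⌋` takes at most two values on `[n, n²]` -/
theorem ncard_loglog (b : ℕ → ℝ) (n : ℕ) :
    ((fun q : ℕ => b (Nat.log 2 (Nat.log 2 q))) '' Set.Icc n (n ^ 2)).ncard ≤ 2 := by
  set a := Nat.log 2 n with ha
  set c := Nat.log 2 a with hc
  have hsub : (fun q : ℕ => b (Nat.log 2 (Nat.log 2 q))) '' Set.Icc n (n ^ 2) ⊆
      {b c, b (c + 1)} := by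
    rintro y ⟨q, ⟨h1, h2⟩, rfl⟩
    have h3 : c ≤ Nat.log 2 (Nat.log 2 q) := Nat.log_mono_right (Nat.log_mono_right h1)
    have h4 : n < 2 ^ (a + 1) := Nat.lt_pow_succ_log_self (by norm_num) n
    have h5 : a < 2 ^ (c + 1) := Nat.lt_pow_succ_log_self (by norm_num) a
    have h6 : q < 2 ^ (2 * a + 2) := by
      have h7 : n ^ 2 < (2 ^ (a + 1)) ^ 2 := Nat.pow_lt_pow_left h4 (by norm_num)
      rw [← pow_mul] at h7
      have h8 : (a + 1) * 2 = 2 * a + 2 := by ring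
      rw [h8] at h7
      omega
    have h7 : Nat.log 2 q < 2 * a + 2 := Nat.log_lt_of_lt_pow' (by omega) h6
    have h8 : Nat.log 2 q < 2 ^ (c + 2) := by
      rw [pow_succ 2 (c + 1)]
      omega
    have h9 : Nat.log 2 (Nat.log 2 q) < c + 2 := Nat.log_lt_of_lt_pow' (by omega) h8
    have h10 : Nat.log 2 (Nat.log 2 q) = c ∨ Nat.log 2 (Nat.log 2 q) = c + 1 := by omega
    rcases h10 with h | h
    · left
      simp only [h]
    · right
      simp only [h, Set.mem_singleton_iff]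
  refine (Set.ncard_le_ncard hsub (Set.toFinite _)).trans ?_
  refine (Set.ncard_insert_le _ _).trans ?_
  rw [Set.ncard_singleton]

end Vale.Agent.N028
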