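import Vale.Agent.P028.MathlibUsed
import Vale.Agent.N028.Top

/-! Not a hand-in: withdrawn from `Results/P028` (departures/helper89.md). -/

namespace Vale.Agent.N028.OldMovingSharp

open MeasureTheory

/-- **The weak inhomogeneous Duffin-Schaeffer conjecture (1), its extension to slowly moving shifts
(2), (3), and the optimality of the weight `φ(q) / q` (4).** -/
theorem movingSharp :
    (∀ γ : ℝ, ∀ ψ : ℕ → ℝ, (∀ q, 0 ≤ ψ q) →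
      ¬ Summable (fun q : ℕ => ((Nat.totient q : ℝ) / q) * ψ q) →
      volume {x : ℝ | {q : ℕ | 0 < q ∧
        |(q * x - γ) - round (q * x - γ)| < ψ q}.Infinite}ᶜ = 0) ∧
    (∀ g : ℕ → ℝ, (∃ R : ℕ, ∀ n : ℕ, (g '' Set.Icc n (n ^ 2)).ncard ≤ R) →
      ∀ ψ : ℕ → ℝ, (∀ q, 0 ≤ ψ q) →
      ¬ Summable (fun q : ℕ => ((Nat.totient q : ℝ) / q) * ψ q) →
      volume {x : ℝ | {q : ℕ | 0 < q ∧
        |(q * x - g q) - round (q * x - g q)| < ψ q}.Infinite}ᶜ = 0) ∧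
    (∀ b : ℕ → ℝ, ∀ ψ : ℕ → ℝ, (∀ q, 0 ≤ ψ q) →
      ¬ Summable (fun q : ℕ => ((Nat.totient q : ℝ) / q) * ψ q) →
      volume {x : ℝ | {q : ℕ | 0 < q ∧
        |(q * x - b (Nat.log 2 (Nat.log 2 q))) - round (q * x - b (Nat.log 2 (Nat.log 2 q)))| <
          ψ q}.Infinite}ᶜ = 0) ∧
    (∀ w : ℕ → ℝ, (∀ q, 0 ≤ w q) →
      (∀ q r : ℕ, 0 < q → 0 < r → q.primeFactors = r.primeFactors → w q = w r) →
      (¬ ∃ C : ℝ, ∀ q : ℕ, 0 < q → w q ≤ C * ((Nat.totient q : ℝ) / q)) →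
      ∀ γ : ℕ → ℝ, ∃ ψ : ℕ → ℝ, (∀ q, 0 ≤ ψ q) ∧ ¬ Summable (fun q : ℕ => w q * ψ q) ∧
        ∀ n : ℕ, volume {x : ℝ | {q : ℕ | 0 < q ∧
          |(q * x - γ n) - round (q * x - γ n)| < ψ q}.Infinite} = 0) :=
  ⟨fun γ ψ hψ h => Vale.P028.SK.q1_full γ ψ hψ h,
    fun _ ⟨_, hR⟩ ψ hψ h => Vale.Agent.N028.moving hR ψ hψ h,
    fun b ψ hψ h => Vale.Agent.N028.moving (Vale.Agent.N028.ncard_loglog b) ψ hψ h,
    fun _ _ hw hC γ => Vale.Agent.N028.sharp hw hC γ⟩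

end Vale.Agent.N028.OldMovingSharp
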